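import Crest.Agent.N111.VN.Emb

/-!
# Row 111, module A: compression to the range of a projection; the corner bimodule.
-/

set_option autoImplicit false
set_option maxHeartbeats 400000

noncomputable section

namespace Crest.Agent.N111.A

open scoped InnerProductSpace ComplexConjugate ENNReal ComplexOrder
open ContinuousLinearMap Crest.OperatorAlgebra Filter Topology

section cmp

variable {E : Type*} [NormedAddCommGroup E] [InnerProductSpace ℂ E]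

/-- the range of a projection -/
def Hp (P : E →L[ℂ] E) : Submodule ℂ E := LinearMap.ker ((P - 1 : E →L[ℂ] E) : E →ₗ[ℂ] E)

theorem mem_Hp {P : E →L[ℂ] E} {ξ : E} : ξ ∈ Hp P ↔ P ξ = ξ := by simp [Hp, sub_eq_zero]

theorem P_coe {P : E →L[ℂ] E} (η : Hp P) : P η = η := mem_Hp.1 η.2

instance [CompleteSpace E] (P : E →L[ℂ] E) : CompleteSpace (Hp P) :=
  (P - 1).isClosed_ker.completeSpace_coe

variable {P : E →L[ℂ] E} (h1 : P * P = P)

/-- the projection onto the range -/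
def prj : E →L[ℂ] Hp P := P.codRestrict _ fun ξ => mem_Hp.2 (by rw [← mul_apply_eq_comp, h1])

@[simp] theorem coe_prj (ξ : E) : (prj h1 ξ : E) = P ξ := rfl

@[simp] theorem prj_coe (η : Hp P) : prj h1 η = η := Subtype.ext (P_coe η)

/-- compression -/
def cmp (T : E →L[ℂ] E) : Hp P →L[ℂ] Hp P := prj h1 ∘L T ∘L (Hp P).subtypeL

/-- extension by zero -/
def ex (T : Hp P →L[ℂ] Hp P) : E →L[ℂ] E := (Hp P).subtypeL ∘L T ∘L prj h1

theorem coe_cmp (T : E →L[ℂ] E) (η : Hp P) : (cmp h1 T η : E) = P (T η) := rfl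

theorem ex_apply (T : Hp P →L[ℂ] Hp P) (ξ : E) : ex h1 T ξ = T (prj h1 ξ) := rfl

theorem ex_coe (T : Hp P →L[ℂ] Hp P) (η : Hp P) : ex h1 T η = T η := by rw [ex_apply, prj_coe]

theorem coe_cmp_of {T : E →L[ℂ] E} (h : Commute P T) (η : Hp P) : (cmp h1 T η : E) = T η := by
  rw [coe_cmp, ← mul_apply_eq_comp, h.eq, mul_apply_eq_comp, P_coe]

theorem cmp_mul (S : E →L[ℂ] E) {T : E →L[ℂ] E} (h : Commute P T) :
    cmp h1 (S * T) = cmp h1 S * cmp h1 T := by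
  ext η
  rw [mul_apply_eq_comp, coe_cmp, coe_cmp, coe_cmp_of h1 h, mul_apply_eq_comp]

theorem cmp_one : cmp h1 1 = 1 := by ext η; exact P_coe η

theorem cmp_P : cmp h1 P = 1 := by ext η; rw [coe_cmp, P_coe, P_coe]; rfl

theorem commute_cmp {S T : E →L[ℂ] E} (hS : Commute P S) (hT : Commute P T) (h : Commute S T) :
    Commute (cmp h1 S) (cmp h1 T) := by
  rw [Commute, SemiconjBy, ← cmp_mul h1 _ hT, ← cmp_mul h1 _ hS, h.eq]

theorem prj_map {x : E →L[ℂ] E} (h : Commute P x) (ξ : E) :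
    prj h1 (x ξ) = cmp h1 x (prj h1 ξ) := by
  ext
  rw [coe_cmp_of h1 h, coe_prj, coe_prj, ← mul_apply_eq_comp, h.eq, mul_apply_eq_comp]

theorem commute_ex {x : E →L[ℂ] E} (h : Commute P x) {T : Hp P →L[ℂ] Hp P}
    (hT : Commute T (cmp h1 x)) : Commute (ex h1 T) x := by
  ext ξ
  rw [mul_apply_eq_comp, mul_apply_eq_comp, ex_apply, ex_apply, prj_map h1 h, ← coe_cmp_of h1 h,
    ← mul_apply_eq_comp, hT.eq, mul_apply_eq_comp]

theorem commute_of_ex {x : E →L[ℂ] E} (h : Commute P x) {T : Hp P →L[ℂ] Hp P}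
    (hT : Commute (ex h1 T) x) : Commute T (cmp h1 x) := by
  ext η
  rw [mul_apply_eq_comp, mul_apply_eq_comp, coe_cmp_of h1 h, ← ex_coe h1 T η, ← ex_coe h1 T,
    coe_cmp_of h1 h, ← mul_apply_eq_comp, hT.eq, mul_apply_eq_comp]

variable [CompleteSpace E] (h2 : star P = P)
include h2

theorem inner_P (ξ η : E) : ⟪P ξ, η⟫_ℂ = ⟪ξ, P η⟫_ℂ := by
  rw [← adjoint_inner_right, ← star_eq_adjoint, h2]

theorem star_cmp (T : E →L[ℂ] E) : star (cmp h1 T) = cmp h1 (star T) := by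
  rw [eq_comm, star_eq_adjoint (cmp h1 T), eq_adjoint_iff]
  intro ζ η
  rw [Submodule.coe_inner, Submodule.coe_inner, coe_cmp, coe_cmp, inner_P h2, ← inner_P h2 _ (T η),
    P_coe, P_coe, star_eq_adjoint, adjoint_inner_left]

/-- the compressed representation -/
def cmpRep {L : Type*} [Group L] (u : L → E →L[ℂ] E) (hu : ∀ g, Commute P (u g))
    (hone : cmp h1 (u 1) = 1) (hmul : ∀ g h, u (g * h) = u g * u h)
    (hs : ∀ g, star (u g) = u g⁻¹) : URep L (Hp P) :=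
  URep.ofStar (fun g => cmp h1 (u g)) hone (fun g h => by rw [hmul, cmp_mul h1 _ (hu h)])
    fun g => by rw [star_cmp h1 h2, hs]


end cmp

theorem exists_lim_linear {α A : Type*} [AddCommGroup A] [Module ℂ A] (U : Ultrafilter α)
    (ω : α → A →ₗ[ℂ] ℂ) (h : ∀ T, ∃ C, ∀ n, ‖ω n T‖ ≤ C) :
    ∃ ω₀ : A →ₗ[ℂ] ℂ, ∀ T, Tendsto (fun n => ω n T) U (𝓝 (ω₀ T)) := by
  choose C hC using h
  choose f hf using fun T => exists_tendsto_ultra U (Eventually.of_forall (hC T))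
  refine ⟨⟨⟨f, fun S T => tendsto_nhds_unique (hf _) ?_⟩, fun c T =>
    tendsto_nhds_unique (hf _) ?_⟩, hf⟩
  · simpa only [map_add] using (hf S).add (hf T)
  · simpa only [map_smul, RingHom.id_apply] using (hf T).const_smul c

variable {Λ K : Type*} [Group Λ] [Group K] (θ : Iso Λ K)

theorem jj_p_mul : jj θ.p * jj θ.p = jj θ.p := by rw [← jj_mul, θ.p_mul_p]

theorem star_jj_p : star (jj θ.p) = jj θ.p := by rw [← jj_star, θ.star_p]

theorem jj_hat {x : Ell2 K →L[ℂ] Ell2 K} (hx : x ∈ LA K) : jj x (dt 1) = star x (dt 1) := by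
  rw [← Rm_star_eq, Rm_hat_LA (star_mem hx)]

theorem jj_apply_hat {x y : Ell2 K →L[ℂ] Ell2 K} (hx : x ∈ LA K) (hy : y ∈ LA K) :
    jj x (y (dt 1)) = y (star x (dt 1)) := by
  rw [← Rm_star_eq, Rm_apply_LA (star_mem hx) hy]

theorem inner_jj_u (s : Λ) (ξ η : Ell2 K) : ⟪jj (θ.u s) ξ, η⟫_ℂ = ⟪ξ, jj (θ.u s⁻¹) η⟫_ℂ := by
  rw [← adjoint_inner_right, ← star_eq_adjoint, ← jj_star, θ.star_u]

theorem inner_u (s : Λ) (ξ η : Ell2 K) : ⟪θ.u s ξ, η⟫_ℂ = ⟪ξ, θ.u s⁻¹ η⟫_ℂ := by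
  rw [← adjoint_inner_right, ← star_eq_adjoint, θ.star_u]

theorem norm_u_hat (hΛ : IsICC Λ) (s : Λ) : ‖θ.u s (dt 1)‖ = √θ.t := by
  rw [Iso.u, θ.norm_hat hΛ (lam_mem_LA s)]; simp

/-- the right action of the source has no invariant vector -/
theorem eq_zero_of_right_inv [Infinite Λ] (hΛ : IsICC Λ) {w : Ell2 K}
    (h : ∀ s, jj (θ.u s) w = w) : w = 0 := by
  refine l2_ext fun k => ?_
  by_contra hk
  have e : ∀ s, jj (θ.u s) (dt k) = lam K k (θ.u s⁻¹ (dt 1)) := fun s => by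
    rw [← θ.star_u, ← jj_apply_hat (θ.u_mem s) (lam_mem_LA k), lam_dt, mul_one]
  refine not_finite_iff_infinite.2 ‹Infinite Λ› (finite_of_orth (e := fun s => jj (θ.u s) (dt k))
    (r := √θ.t) (fun s r hsr => ?_) (fun s => ?_) (norm_pos_iff.2 hk) (w := w) fun s => ?_)
  · simp only [e, URep.inner_map_map, θ.inner_u_hat hΛ, dt_ne (inv_injective.ne hsr), mul_zero]
  · rw [e, URep.norm_map, norm_u_hat θ hΛ]
  · rw [inner_jj_u, h, inner_dt]

/-- irreducibility of the corner -/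
theorem eq_smul_of_ad_inv (hΛ : IsICC Λ) {w : Ell2 K} (hp : θ.p w = w) (hP : jj θ.p w = w)
    (h : ∀ s, θ.u s (jj (θ.u s) w) = w) : ∃ c : ℂ, w = c • θ.p (dt 1) := by
  have hinv : ∀ γ s, ⟪θ.u (γ * s * γ⁻¹) (dt 1), w⟫_ℂ = ⟪θ.u s (dt 1), w⟫_ℂ := fun γ s => by
    conv_lhs => rw [← h γ, ← inv_inv γ, ← inner_u, ← inner_jj_u, inv_inv, ← mul_apply_eq_comp (θ.u _),
      ← θ.u_mul, jj_apply_hat (θ.u_mem _) (θ.u_mem _), θ.star_u, ← mul_apply_eq_comp, ← θ.u_mul]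
    congr 3; group
  have h0 : ∀ s, s ≠ 1 → ⟪θ.u s (dt 1), w⟫_ℂ = 0 := fun s hs => by
    by_contra hne
    refine hΛ s hs (Set.finite_coe_iff.1 (finite_of_orth
      (e := fun r : {h | ∃ k, h = k * s * k⁻¹} => θ.u r (dt 1)) (r := √θ.t)
      (fun r r' hr => ?_) (fun r => norm_u_hat θ hΛ _) (norm_pos_iff.2 hne) (w := w) ?_))
    · simp only [θ.inner_u_hat hΛ, dt_ne (Subtype.coe_ne_coe.2 hr), mul_zero]
    · rintro ⟨_, k, rfl⟩
      exact (congrArg norm (hinv k s)).ge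
  refine ⟨⟪θ.u 1 (dt 1), w⟫_ℂ / θ.t, sub_eq_zero.1 (eq_zero_of_inner_dt fun k => ?_)⟩
  set z := w - (⟪θ.u 1 (dt 1), w⟫_ℂ / θ.t) • θ.p (dt 1) with hz
  have h1 : ∀ s, ⟪z, θ.u s (dt 1)⟫_ℂ = 0 := fun s => inner_eq_zero_symm.1 (by
    rw [hz, inner_sub_right, inner_smul_right, ← θ.u_one, θ.inner_u_hat hΛ]
    by_cases hs : s = 1
    · have : (θ.t : ℂ) ≠ 0 := by exact_mod_cast θ.t_pos.ne'
      rw [hs, dt_self, mul_one, div_mul_cancel₀ _ this, sub_self]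
    · rw [h0 s hs, dt_ne hs]; simp)
  have hz1 : θ.p z = z := by rw [hz, map_sub, map_smul, hp, ← mul_apply_eq_comp, θ.p_mul_p]
  have hz2 : jj θ.p z = z := by
    rw [hz, map_sub, map_smul, hP, jj_apply_hat θ.p_mem θ.p_mem, θ.star_p, ← mul_apply_eq_comp,
      θ.p_mul_p]
  obtain ⟨x, hx, e⟩ := θ.surj (lam_mem_LA k)
  have h2 := (innerSL ℂ z).hasSum (θ.hasSum_hat hΛ hx)
  simp only [innerSL_apply_apply, inner_smul_right, h1, mul_zero] at h2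
  have h3 := inner_eq_zero_symm.1 (h2.unique hasSum_zero)
  have e2 : (θ.p * lam K k * θ.p) (dt 1) = θ.p (jj θ.p (dt k)) := by
    rw [mul_apply_eq_comp, mul_apply_eq_comp, ← θ.star_p, ← jj_apply_hat θ.p_mem (lam_mem_LA k),
      θ.star_p, lam_dt, mul_one]
  rwa [e, e2, inner_P θ.star_p, inner_P (star_jj_p θ), hz1, hz2] at h3

section avg

variable (hΛ : IsICC Λ) {T : Ell2 K →L[ℂ] Ell2 K} (hT : ∀ s, Commute T (jj (θ.u s)))
include hΛ hT

theorem move {a b y : Ell2 K →L[ℂ] Ell2 K} (ha : a ∈ LA K) (hb : b ∈ LA K) (hy : y ∈ LA K) :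
    ⟪a (θ.p (dt 1)), T ((b * θ.p * y) (θ.p (dt 1)))⟫_ℂ
      = ⟪(a * θ.p * star y) (θ.p (dt 1)), T (b (θ.p (dt 1)))⟫_ℂ := by
  obtain ⟨x, hx, e⟩ := θ.surj (star_mem hy)
  have h1 : Commute T (jj (θ.φ x)) := by
    have := θ.comm_φ_of_comm_u hΛ (T := jj T) (fun s => by simpa using (commute_jj (hT s)).eq.symm) hx
    simpa using (commute_jj this).symm
  have key : ∀ {b y : Ell2 K →L[ℂ] Ell2 K}, b ∈ LA K → y ∈ LA K →
      (b * θ.p * y) (θ.p (dt 1)) = jj (θ.p * star y * θ.p) (b (θ.p (dt 1))) := by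
    intro b y hb hy
    rw [← mul_apply_eq_comp b, jj_apply_hat (mul_mem (mul_mem θ.p_mem (star_mem hy)) θ.p_mem)
      (mul_mem hb θ.p_mem), ← mul_apply_eq_comp, ← mul_apply_eq_comp]
    simp only [star_mul, star_star, θ.star_p, mul_assoc, ← mul_assoc θ.p θ.p, θ.p_mul_p]
  rw [key hb hy, key ha (star_mem hy), ← e, ← mul_apply_eq_comp T, h1.eq, mul_apply_eq_comp,
    ← adjoint_inner_left, ← star_eq_adjoint, ← jj_star, e]
  simp only [star_mul, star_star, θ.star_p, mul_assoc]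

theorem avg_inv {ι : Type*} [Fintype ι] {w : ι → ℝ} (hw0 : ∀ i, 0 ≤ w i) (hw1 : ∑ i, w i = 1)
    (g : ι → K) {ε : ℝ} (hε : ‖(cavg (lam K) w g θ.p - (θ.t : ℂ) • 1) (dt 1)‖ ≤ ε) (μ : K) :
    ‖(θ.t : ℂ) * ∑ i, w i * ⟪lam K (μ⁻¹ * g i) (θ.p (dt 1)), T (lam K (μ⁻¹ * g i) (θ.p (dt 1)))⟫_ℂ
      - θ.t * ∑ i, w i * ⟪lam K (g i) (θ.p (dt 1)), T (lam K (g i) (θ.p (dt 1)))⟫_ℂ‖
      ≤ 2 * (‖T‖ * ε) := by
  set z := cavg (lam K) w g θ.p with hz
  set Ω := θ.p (dt 1) with hΩ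
  have hzL : z - (θ.t : ℂ) • 1 ∈ LA K :=
    sub_mem (cavg_mem_LA w g θ.p_mem) (SMulMemClass.smul_mem _ (one_mem _))
  have hΩ1 : ∀ k, ‖lam K k Ω‖ ≤ 1 := fun k => by
    rw [URep.norm_map]; exact (norm_hat_le _).trans θ.norm_p_le
  have hε0 : 0 ≤ ε := (norm_nonneg _).trans hε
  have hb : ∀ {d : Ell2 K →L[ℂ] Ell2 K}, d ∈ LA K → ‖d (dt 1)‖ ≤ ε → ∀ k, ‖d (lam K k Ω)‖ ≤ ε := by
    intro d hd h k
    rw [hΩ, ← mul_apply_eq_comp (lam K k)]
    refine (norm_hat_mul_LA hd (mul_mem (lam_mem_LA k) θ.p_mem)).trans ?_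
    have : ‖lam K k * θ.p‖ ≤ 1 := (norm_mul_le _ _).trans
      (mul_le_one₀ ((lam K).norm_le k) (norm_nonneg _) θ.norm_p_le)
    nlinarith [norm_nonneg (d (dt 1))]
  have hsum : ∀ f : ι → ℂ, (∀ i, ‖f i‖ ≤ ‖T‖ * ε) → ‖∑ i, w i * f i‖ ≤ ‖T‖ * ε := fun f hf => by
    refine (norm_sum_le _ _).trans ?_
    calc _ ≤ ∑ i, w i * (‖T‖ * ε) := Finset.sum_le_sum fun i _ => by
          rw [norm_mul, Complex.norm_real, Real.norm_of_nonneg (hw0 i)]
          exact mul_le_mul_of_nonneg_left (hf i) (hw0 i)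
      _ = _ := by rw [← Finset.sum_mul, hw1, one_mul]
  set z' := lam K μ⁻¹ * (z - (θ.t : ℂ) • 1) * lam K μ⁻¹⁻¹ with hz'
  have hz'L : z' ∈ LA K := mul_mem (mul_mem (lam_mem_LA _) hzL) (lam_mem_LA _)
  have hz'ε : ‖z' (dt 1)‖ ≤ ε := by rwa [hz', conj_hat_LA hzL, URep.norm_map]
  have e1 := hsum (fun i => ⟪lam K (μ⁻¹ * g i) Ω, T ((z - (θ.t : ℂ) • 1) (lam K (μ⁻¹ * g i) Ω))⟫_ℂ)
    fun i => (norm_inner_le_norm _ _).trans ((mul_le_of_le_one_left (norm_nonneg _) (hΩ1 _)).trans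
      ((T.le_opNorm _).trans (mul_le_mul_of_nonneg_left (hb hzL hε _) (norm_nonneg _))))
  have e2 := hsum (fun i => ⟪z' (lam K (g i) Ω), T (lam K (g i) Ω)⟫_ℂ)
    fun i => (norm_inner_le_norm _ _).trans (by
      rw [mul_comm]
      exact mul_le_mul ((T.le_opNorm _).trans (mul_le_of_le_one_right (norm_nonneg _) (hΩ1 _)))
        (hb hz'L hz'ε _) (norm_nonneg _) (norm_nonneg _))
  have mv : ∀ i j, ⟪lam K (μ⁻¹ * g i) Ω, T (lam K (g j) (θ.p (lam K (g j)⁻¹ (lam K (μ⁻¹ * g i) Ω))))⟫_ℂ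
      = ⟪lam K μ⁻¹ (lam K (g i) (θ.p (lam K (g i)⁻¹ (lam K μ (lam K (g j) Ω))))),
        T (lam K (g j) Ω)⟫_ℂ := fun i j => by
    have := move θ hΛ hT (lam_mem_LA (μ⁻¹ * g i)) (lam_mem_LA (g j))
      (lam_mem_LA ((g j)⁻¹ * (μ⁻¹ * g i)))
    simpa only [URep.star_apply, mul_apply_eq_comp, mul_inv_rev, inv_inv, URep.mul_apply] using this
  have key : ∑ i, w i * ⟪lam K (μ⁻¹ * g i) Ω, T (z (lam K (μ⁻¹ * g i) Ω))⟫_ℂ
      = ∑ j, w j * ⟪lam K μ⁻¹ (z (lam K μ (lam K (g j) Ω))), T (lam K (g j) Ω)⟫_ℂ := by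
    simp only [hz, cavg, sum_apply, smul_apply, mul_apply_eq_comp, map_sum, map_smul, inner_sum,
      sum_inner, inner_smul_left, inner_smul_right, Complex.conj_ofReal, Finset.mul_sum, mv]
    rw [Finset.sum_comm]
    exact Finset.sum_congr rfl fun _ _ => Finset.sum_congr rfl fun _ _ => mul_left_comm _ _ _
  simp only [hz', inv_inv, mul_apply_eq_comp, sub_apply, smul_apply, one_apply_eq_self, map_sub,
    map_smul, inner_sub_left, inner_sub_right, inner_smul_left, inner_smul_right,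
    Complex.conj_ofReal, URep.inv_apply_apply, mul_sub, Finset.sum_sub_distrib,
    mul_left_comm _ (θ.t : ℂ), ← Finset.mul_sum] at e1 e2
  rw [key] at e1
  refine le_trans (le_of_eq ?_) ((norm_sub_le _ _).trans ((add_le_add e2 e1).trans_eq (by ring)))
  congr 1; ring

end avg

end Crest.Agent.N111.A
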